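import Vale.Agent.Lib.P248.AB3

open MeasureTheory

namespace Vale.Agent.Results.P248.AntiBlockingMahler

open Vale.Agent.Lib.P248 in
/-- The sharp non-symmetric Mahler inequality for anti-blocking convex bodies in every dimension,
with the equality case: equality at a point `z` forces the body to be a simplex with centroid `z`. -/
theorem result {n : ℕ} (S : Set (Fin n → ℝ)) (hconv : Convex ℝ S) (hcomp : IsCompact S)
    (hab : IsAntiBlocking S) (z : Fin n → ℝ) (hz : z ∈ interior S) :
    ((n : ℝ) + 1) ^ (n + 1) / ((n.factorial : ℝ) ^ 2) ≤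
        (volume S).toReal * (volume (polarAt S z)).toReal ∧
      ((volume S).toReal * (volume (polarAt S z)).toReal =
          ((n : ℝ) + 1) ^ (n + 1) / ((n.factorial : ℝ) ^ 2) →
        S = {x | (∀ i, 0 ≤ x i) ∧ ∑ i, x i / (((n : ℝ) + 1) * z i) ≤ 1}) := by
  obtain ⟨h1, h2⟩ := antiblocking_mahler hconv hcomp hab hz
  simp only [Fintype.card_fin] at h1 h2
  have hf : (0 : ℝ) < (n.factorial : ℝ) := by positivity
  have hrew : ((n.factorial : ℝ) * (volume S).toReal) *
      ((n.factorial : ℝ) * (volume (polarAt S z)).toReal) =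
      (n.factorial : ℝ) ^ 2 * ((volume S).toReal * (volume (polarAt S z)).toReal) := by ring
  rw [hrew] at h1 h2
  constructor
  · rw [div_le_iff₀ (by positivity)]
    linarith
  · intro heq
    apply h2
    rw [heq]
    field_simp

end Vale.Agent.Results.P248.AntiBlockingMahler
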