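import Vale.Agent.Lib.P248.LAB8

open MeasureTheory

namespace Vale.Agent.Results.P248.LocallyAntiBlockingMahler

open Vale.Agent.Lib.P248 in
/-- The sharp non-symmetric Mahler inequality for every locally anti-blocking convex body in every
dimension, at every interior point. -/
theorem result {n : ℕ} (K : Set (Fin n → ℝ)) (hconv : Convex ℝ K) (hcomp : IsCompact K)
    (hlab : IsLocallyAntiBlocking K) (z : Fin n → ℝ) (hz : z ∈ interior K) :
    ((n : ℝ) + 1) ^ (n + 1) / ((n.factorial : ℝ) ^ 2) ≤
      (volume K).toReal * (volume (polarAt K z)).toReal :=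
  lab_mahler hconv hcomp hlab hz

end Vale.Agent.Results.P248.LocallyAntiBlockingMahler
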