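import Vale.Agent.Results.P248.A_MahlerThreeEquality
import Vale.Agent.Results.P248.AntiBlockingMahler
import Vale.Agent.Results.P248.LocallyAntiBlockingMahler

open MeasureTheory

namespace Vale.Agent.Results.P248.A00_master

open Vale.Agent.Lib.P248 in
/-- Conjunction of three Mahler inequalities. (1) The general Mahler conjecture in dimension three,
with its equality cases. (2) The sharp non-symmetric inequality for anti-blocking convex bodies in
every dimension, with the equality case. (3) The sharp non-symmetric inequality for locally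
anti-blocking convex bodies in every dimension, at every interior point. -/
theorem result :
    (∀ K : Set (Fin 3 → ℝ), IsCompact K → Convex ℝ K → (interior K).Nonempty →
      (∀ z ∈ interior K, (64 / 9 : ℝ) ≤ (volume K).toReal * (volume (polarAt K z)).toReal) ∧
      (∀ z ∈ interior K, ((volume K).toReal * (volume (polarAt K z)).toReal = 64 / 9 ↔
        ∃ v : Fin 4 → Fin 3 → ℝ, K = convexHull ℝ (Set.range v) ∧ z = (1 / 4 : ℝ) • ∑ i, v i)) ∧
      (64 / 9 : ℝ) ≤
        sInf ((fun z => (volume K).toReal * (volume (polarAt K z)).toReal) '' interior K) ∧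
      (sInf ((fun z => (volume K).toReal * (volume (polarAt K z)).toReal) '' interior K) = 64 / 9 ↔
        ∃ v : Fin 4 → Fin 3 → ℝ, K = convexHull ℝ (Set.range v))) ∧
    (∀ {n : ℕ} (S : Set (Fin n → ℝ)), Convex ℝ S → IsCompact S → IsAntiBlocking S →
      ∀ z ∈ interior S,
      ((n : ℝ) + 1) ^ (n + 1) / ((n.factorial : ℝ) ^ 2) ≤
          (volume S).toReal * (volume (polarAt S z)).toReal ∧
        ((volume S).toReal * (volume (polarAt S z)).toReal =
            ((n : ℝ) + 1) ^ (n + 1) / ((n.factorial : ℝ) ^ 2) →
          S = {x | (∀ i, 0 ≤ x i) ∧ ∑ i, x i / (((n : ℝ) + 1) * z i) ≤ 1})) ∧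
    (∀ {n : ℕ} (K : Set (Fin n → ℝ)), Convex ℝ K → IsCompact K → IsLocallyAntiBlocking K →
      ∀ z ∈ interior K,
      ((n : ℝ) + 1) ^ (n + 1) / ((n.factorial : ℝ) ^ 2) ≤
        (volume K).toReal * (volume (polarAt K z)).toReal) :=
  ⟨fun K hcomp hconv hint => A_MahlerThreeEquality.result K hcomp hconv hint,
    fun S hconv hcomp hab z hz => AntiBlockingMahler.result S hconv hcomp hab z hz,
    fun K hconv hcomp hlab z hz => LocallyAntiBlockingMahler.result K hconv hcomp hlab z hz⟩

end Vale.Agent.Results.P248.A00_master
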