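import Vale.Agent.Lib.P248.Eq10

open MeasureTheory

namespace Vale.Agent.Results.P248.A_MahlerThreeEquality

open Vale.Agent.Lib.P248 in
/-- The general Mahler conjecture in dimension three, with its equality cases. Let `K` be a convex
body in `ℝ³`. For every point `z` in its interior, `|K| |(K - z)°| ≥ 64/9`, with equality if and only
if `K` is the convex hull of four points and `z` is their barycentre. The volume product
`P(K) = inf_z |K| |(K - z)°|` satisfies `P(K) ≥ 64/9`, with equality if and only if `K` is a
tetrahedron. -/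
theorem result (K : Set (Fin 3 → ℝ)) (hcomp : IsCompact K) (hconv : Convex ℝ K)
    (hint : (interior K).Nonempty) :
    (∀ z ∈ interior K, (64 / 9 : ℝ) ≤ (volume K).toReal * (volume (polarAt K z)).toReal) ∧
    (∀ z ∈ interior K, ((volume K).toReal * (volume (polarAt K z)).toReal = 64 / 9 ↔
      ∃ v : Fin 4 → Fin 3 → ℝ, K = convexHull ℝ (Set.range v) ∧ z = (1 / 4 : ℝ) • ∑ i, v i)) ∧
    (64 / 9 : ℝ) ≤ sInf ((fun z => (volume K).toReal * (volume (polarAt K z)).toReal) '' interior K) ∧
    (sInf ((fun z => (volume K).toReal * (volume (polarAt K z)).toReal) '' interior K) = 64 / 9 ↔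
      ∃ v : Fin 4 → Fin 3 → ℝ, K = convexHull ℝ (Set.range v)) :=
  ⟨fun _ hz => mahler3 hcomp hconv hz, fun _ hz => (mahler3_equality hcomp hconv hz).2,
    (mahler3_full hcomp hconv hint).1, (mahler3_full hcomp hconv hint).2⟩

end Vale.Agent.Results.P248.A_MahlerThreeEquality
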