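import Vale.Agent.Lib.P248.Graph4

open MeasureTheory

namespace Vale.Agent.Results.P248.HansenCograph

open Vale.Agent.Lib.P248 in
/-- The symmetric Mahler inequality for Hansen polytopes of cographs. -/
theorem result {V : Type} [Fintype V] (G : SimpleGraph V) (hG : IsCograph G) :
    (4 : ℝ) ^ (Fintype.card V + 1) / ((Fintype.card V + 1).factorial : ℝ) ≤
      (volume (hansenPolytope G)).toReal * (volume (polarBody (hansenPolytope G))).toReal :=
  mahler_hansen_cograph hG

end Vale.Agent.Results.P248.HansenCograph
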