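import Vale.Agent.Lib.P248.Pol9

open MeasureTheory

namespace Vale.Agent.Results.P248.MahlerDimThree

open Vale.Agent.Lib.P248 in
/-- The general Mahler inequality in dimension three: for every compact convex set `K` in `ℝ³` and
every point `z` in its interior, `|K| |(K - z)°| ≥ 64/9 = 4⁴/(3!)²`, the volume product of a
tetrahedron at its centroid. -/
theorem result (K : Set (Fin 3 → ℝ)) (hcomp : IsCompact K) (hconv : Convex ℝ K)
    (z : Fin 3 → ℝ) (hz : z ∈ interior K) :
    (64 / 9 : ℝ) ≤ (volume K).toReal * (volume (polarAt K z)).toReal :=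
  mahler3 hcomp hconv hz

end Vale.Agent.Results.P248.MahlerDimThree
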